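import Vale.Agent.P352X.R.FAR
import Vale.Agent.P352X.R.LIE
import Vale.Agent.P352X.Api4
import Vale.Agent.P352X.Api2c

/-!
# P352X, row IX, part A: invariance of the three point function (helper80)
-/

set_option linter.all false

open MeasureTheory Filter Topology
open scoped SchwartzMap ComplexConjugate ENNReal ContDiff

namespace Vale.Agent.P352X.IXH

open Vale.Agent.P352 Vale.Agent.P352.GF Vale.Agent.P352.BW Vale.Agent.P352.H246
open Vale.Agent.P352.H496 Vale.Agent.P352.H755 Vale.Agent.P352.H15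
open UniformSpace (Completion)

noncomputable section

/-! ## invariant tensors -/

theorem sum_inv {ι M : Type*} [Fintype ι] [AddCommGroup M] [Module ℂ M] {A : ι → ι → ℂ} {u : ι → ℂ}
    (h : ∀ K, ∑ I, A K I * u I = u K) (f : ι → M) :
    ∑ I, u I • ∑ K, A K I • f K = ∑ K, u K • f K := by
  simp only [Finset.smul_sum, smul_smul]
  rw [Finset.sum_comm]
  refine Finset.sum_congr rfl fun K _ => ?_
  rw [← Finset.sum_smul, ← h K]
  exact congrArg (· • f K) (Finset.sum_congr rfl fun I _ => mul_comm _ _)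

theorem prod_inv {ι κ : Type*} [Fintype ι] [Fintype κ] {A : ι → ι → ℂ} {B : κ → κ → ℂ} {u : ι → ℂ}
    {v : κ → ℂ} (h : ∀ K, ∑ I, A K I * u I = u K) (h' : ∀ K, ∑ I, B K I * v I = v K) (P : ι × κ) :
    ∑ Q : ι × κ, (A P.1 Q.1 * B P.2 Q.2) * (u Q.1 * v Q.2) = u P.1 * v P.2 := by
  rw [← h P.1, ← h' P.2, Finset.sum_mul_sum, Fintype.sum_prod_type]
  exact Finset.sum_congr rfl fun _ _ => Finset.sum_congr rfl fun _ _ => by ring

theorem tri_inv {ι : Type*} [Fintype ι] {A : ι → ι → ℂ} {u v : ι → ℂ}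
    (h : ∀ K, ∑ I, A K I * u I = u K) (h' : ∀ K, ∑ I, A K I * v I = v K) (τ τ' : ι → ι → ι → ℂ)
    (e : ∀ I J K, τ I J K = ∑ I', ∑ J', ∑ K', A I' I * A J' J * A K' K * τ' I' J' K') :
    ∑ P : ι × ι × ι, (u P.1 * (v P.2.1 * u P.2.2)) • τ P.1 P.2.1 P.2.2 =
      ∑ P : ι × ι × ι, (u P.1 * (v P.2.1 * u P.2.2)) • τ' P.1 P.2.1 P.2.2 := by
  have e' : ∀ P : ι × ι × ι, τ P.1 P.2.1 P.2.2 = ∑ Q : ι × ι × ι,
      (A Q.1 P.1 * (A Q.2.1 P.2.1 * A Q.2.2 P.2.2)) • τ' Q.1 Q.2.1 Q.2.2 := fun P => by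
    simp only [e, Fintype.sum_prod_type, smul_eq_mul, mul_assoc]
  simp only [e']
  exact sum_inv (A := fun Q P : ι × ι × ι => A Q.1 P.1 * (A Q.2.1 P.2.1 * A Q.2.2 P.2.2))
    (u := fun P => u P.1 * (v P.2.1 * u P.2.2))
    (prod_inv (B := fun Q P : ι × ι => A Q.1 P.1 * A Q.2 P.2)
      (v := fun P => v P.1 * u P.2) h (prod_inv h' h)) fun Q => τ' Q.1 Q.2.1 Q.2.2

theorem two_inv {ι M : Type*} [Fintype ι] [AddCommGroup M] [Module ℂ M] {A : ι → ι → ℂ} {u : ι → ℂ}
    (h : ∀ K, ∑ I, A K I * u I = u K) (τ τ' : ι → ι → M) (o : M)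
    (e : ∀ I J, ∃ κ : ℂ, τ I J = ∑ I', ∑ J', (A I' I * A J' J) • τ' I' J' + κ • o) :
    ∃ κ : ℂ, ∑ P : ι × ι, (u P.1 * u P.2) • τ P.1 P.2 =
      ∑ P : ι × ι, (u P.1 * u P.2) • τ' P.1 P.2 + κ • o := by
  choose κ e using e
  refine ⟨∑ P : ι × ι, (u P.1 * u P.2) * κ P.1 P.2, ?_⟩
  have e' : ∀ P : ι × ι, τ P.1 P.2 = ∑ Q : ι × ι, (A Q.1 P.1 * A Q.2 P.2) • τ' Q.1 Q.2 +
      κ P.1 P.2 • o := fun P => by simp only [e, Fintype.sum_prod_type]
  simp only [e', smul_add, Finset.sum_add_distrib, smul_smul, Finset.sum_smul]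
  rw [sum_inv (A := fun Q P : ι × ι => A Q.1 P.1 * A Q.2 P.2) (u := fun P => u P.1 * u P.2)
    (prod_inv h h) fun Q => τ' Q.1 Q.2]

/-- the metric -/
def ue (I : I2) : ℂ := if I.2 = I.1 then (eta I.1 : ℂ) else 0

/-- the tensor `a a` with lower indices -/
def ua (J : I2) : ℂ := (eta J.1 * va J.1 * (eta J.2 * va J.2) : ℝ)

theorem sum_ue {M : Type*} [AddCommGroup M] [Module ℂ M] (f : I2 → M) :
    ∑ I, ue I • f I = ∑ m, (eta m : ℂ) • f (m, m) := by
  rw [Fintype.sum_prod_type]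
  refine Finset.sum_congr rfl fun m _ => ?_
  simp only [ue, ite_smul, zero_smul, Finset.sum_ite_eq', Finset.mem_univ, if_true]

theorem ue_inv {L : Ix → V} (hL : IsLor L) (K : I2) : ∑ I, L2 L K I * ue I = ue K := by
  have h := sum_ue (M := ℂ) fun I => L2 L K I
  simp only [smul_eq_mul] at h
  simp only [mul_comm (L2 L K _), h]
  have h1 : ((GF.mdot (L K.1) (L K.2) : ℝ) : ℂ) = ue K := by
    rw [hL.1 K.1 K.2, ue, bas]
    split_ifs <;> simp
  rw [← h1, GF.mdot]
  push_cast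
  exact Finset.sum_congr rfl fun _ _ => by simp only [L2]; push_cast; ring

theorem ua_inv {L : Ix → V} (hL : ∀ m, be (L m) = eta m * va m) (K : I2) :
    ∑ I, L2 L K I * ua I = ua K := by
  have h : ∀ m, ∑ k, L m k * (eta k * va k) = eta m * va m := fun m => by
    rw [← hL m, be, GF.mdot]
    exact Finset.sum_congr rfl fun _ _ => by ring
  rw [ua, ← h K.1, ← h K.2, Finset.sum_mul_sum, Fintype.sum_prod_type]
  push_cast
  exact Finset.sum_congr rfl fun _ _ => Finset.sum_congr rfl fun _ _ => by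
    simp only [L2, ua]; push_cast; ring

variable {D : Type*} [NormedAddCommGroup D] [InnerProductSpace ℂ D] (c : Ctx D)

/-- `t0` as a continuous linear map -/
def t0L : S3 →L[ℂ] ℂ where
  toFun := c.t0
  map_add' := Far.t0_add c
  map_smul' a F := by
    simp only [Ctx.t0, map_smul, smul_eq_mul, RingHom.id_apply, Finset.mul_sum, mul_left_comm a]
  cont := by
    unfold Ctx.t0
    fun_prop

theorem t0L_apply (F : S3) : t0L c F = c.t0 F := rfl

theorem t0_eq (F : S3) : c.t0 F =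
    ∑ P : I2 × I2 × I2, (ue P.1 * (ua P.2.1 * ue P.2.2)) • c.t P.1 P.2.1 P.2.2 F := by
  have e : ∀ (I J : I2), ∑ K, (ue I * (ua J * ue K)) • c.t I J K F =
      ue I • ua J • ∑ n, (eta n : ℂ) • c.t I J (n, n) F := fun I J => by
    rw [← sum_ue fun K => c.t I J K F]
    simp only [Finset.smul_sum, smul_smul]
  simp only [Fintype.sum_prod_type (α₁ := I2), e, ← Finset.smul_sum]
  rw [sum_ue fun I => ∑ J, ua J • ∑ n, (eta n : ℂ) • c.t I J (n, n) F]
  simp only [Ctx.t0, Fintype.sum_prod_type, Finset.smul_sum, smul_eq_mul, Finset.mul_sum, ua]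
  refine Finset.sum_congr rfl fun _ _ => Finset.sum_congr rfl fun _ _ =>
    Finset.sum_congr rfl fun _ _ => Finset.sum_congr rfl fun _ _ => ?_
  push_cast
  ring

theorem t0_inv [Fact c.tp] {L : Ix → V} {a : V} (hL : IsLor L) (ha : ∀ m, be (L m) = eta m * va m) {F G : S3}
    (h : ∀ x y z, G (x, y, z) = F (sim 1 L a x, sim 1 L a y, sim 1 L a z)) :
    c.t0 F = c.t0 G := by
  rw [t0_eq, t0_eq]
  exact tri_inv (ue_inv hL) (ua_inv ha) (fun I J K => c.t I J K F) (fun I J K => c.t I J K G)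
    fun I J K => c.hTP.cov 1 L a I J K F G one_pos hL h (Or.inl rfl)

theorem wTT_eq (w : I2 → I2 → S2 →L[ℂ] Completion D) (F : S2) :
    Far.wTT w F = ∑ P : I2 × I2, (ue P.1 * ue P.2) • w P.1 P.2 F := by
  have e : ∀ I : I2, ∑ K, (ue I * ue K) • w I K F =
      ue I • ∑ n, (eta n : ℂ) • w I (n, n) F := fun I => by
    rw [← sum_ue fun K => w I K F]
    simp only [Finset.smul_sum, smul_smul]
  simp only [Fintype.sum_prod_type (α₁ := I2), e]
  rw [sum_ue fun I => ∑ n, (eta n : ℂ) • w I (n, n) F]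
  simp only [Far.wTT, Finset.smul_sum, smul_smul, Complex.ofReal_mul]

variable {c} in
theorem wTT_cov {e : Bool} {w : I2 → I2 → S2 →L[ℂ] Completion D} (hw : TP2 c.Q c.T e w)
    {L : Ix → V} (hL : IsLor L) {F G : S2}
    (h : ∀ x y, G (x, y) = F (sim 1 L 0 x, sim 1 L 0 y)) :
    ∃ κ : ℂ, Far.wTT w F = Ug c.Q 1 L 0 (Far.wTT w G) + κ • c.Om := by
  obtain ⟨κ, hκ⟩ := two_inv (ue_inv hL) (fun I J => w I J F)
    (fun I J => Ue c.Q 1 L 0 (w I J G)) c.Om fun I J => hw.cov 1 L 0 I J F G one_pos hL h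
  refine ⟨κ, ?_⟩
  rw [wTT_eq, hκ, wTT_eq, map_sum]
  simp only [← Ug_apply c.Q one_pos hL, map_smul]

/-! ## infinitesimal invariance -/

theorem der0 {E : Type*} [NormedAddCommGroup E] [NormedSpace ℝ E] [FiniteDimensional ℝ E]
    (Λ : 𝓢(E, ℂ) →L[ℂ] ℂ) {g : ℝ → E →L[ℝ] E} {a : ℝ → E} {g' : E →L[ℝ] E} {a' : E} {F : E → ℂ}
    (hg : HasDerivAt g g' 0) (ha : HasDerivAt a a' 0) (g0 : g 0 = 1) (a0 : a 0 = 0) (hF : Dc F)
    (h1 : ∀ t, Dc fun x => F (g t x + a t))
    (h2 : ∀ t, Λ (sch F) = Λ (sch fun x => F (g t x + a t))) :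
    Λ (sch fun x => fderiv ℝ F x (g' x + a')) = 0 := by
  have h := Lie.der (F := sch F) (F' := sch fun x => fderiv ℝ F x (g' x + a'))
    (Ft := fun t => sch fun x => F (g t x + a t)) hg ha g0 a0
    (Eventually.of_forall fun t x => by rw [Api4.sch_apply (h1 t), Api4.sch_apply hF])
    fun x => by
      rw [Api4.sch_apply (Api4.dc_fderiv hF (g'.contDiff.add contDiff_const)), Api4.coe_sch hF]
  have h' := (Λ.continuous.tendsto _).comp h
  refine tendsto_nhds_unique h' (tendsto_const_nhds.congr fun t => ?_)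
  simp only [Function.comp_apply, Λ.map_smul_of_tower, map_sub, ← h2 t, sub_self, smul_zero]

theorem be_bas (m : Ix) : be (bas m 1) = eta m * va m := by
  rw [be, GF.mdot, Finset.sum_eq_single m (fun n _ hn => by simp [bas, hn]) (by simp)]
  simp [bas]

theorem sim_one (a x : V) : sim 1 GF.one a x = x + a := by
  funext n
  simp [sim, GF.one, bas, add_comm]

theorem sim_bas (L : Ix → V) (m : Ix) : sim 1 L 0 (bas m 1) = L m := by
  funext n
  simp [sim, bas]

theorem t0_tra [Fact c.tp] {F : V × V × V → ℂ} (hF : Dc F) (y : V) :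
    c.t0 (sch fun z => fderiv ℝ F z (y, y, y)) = 0 := by
  have h1 : ∀ t : ℝ, Dc fun x => F ((1 : _ →L[ℝ] _) x + t • (y, y, y)) := fun t =>
    Api4.dc_add_const hF _
  have := der0 (t0L c) (g := fun _ => 1) (a := fun t => t • (y, y, y)) (g' := 0) (a' := (y, y, y))
    (hasDerivAt_const _ _) (by simpa using (hasDerivAt_id (0 : ℝ)).smul_const (y, y, y)) rfl
    (zero_smul _ _) hF h1 fun t => t0_inv c (a := t • y) H496.isLor_one be_bas fun x y z => by
      rw [Api4.sch_apply (h1 t), Api4.sch_apply hF, sim_one, sim_one, sim_one]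
      rfl
  simp only [ContinuousLinearMap.zero_apply, zero_add] at this
  exact this

/-- the generator of the null rotations -/
def mL (i : Fin 2) : V →L[ℝ] V :=
  (ContinuousLinearMap.proj i ∘L txL).smulRight va + beL.smulRight (ex i)

theorem mL_apply (i : Fin 2) (z : V) : mL i z = tx z i • va + be z • ex i := rfl

/-- the diagonal action on three points -/
def tr3 (A : V →L[ℝ] V) : V × V × V →L[ℝ] V × V × V := A.prodMap (A.prodMap A)

theorem gap_eq (i : Fin 2) (t : ℝ) (z : V) :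
    gap (t • e2 i) z = z + t • mL i z + t ^ 2 • ((1 / 2 : ℝ) • beL).smulRight va z :=
  null_ext (by simp [mL_apply, d2_smul, d2_smul_l]; ring) (by simp [mL_apply])
    (by simp [mL_apply, smul_smul, mul_comm])

variable {c} in
theorem t0_rot [Fact c.tp] (hg : GRP c) {F : V × V × V → ℂ} (hF : Dc F) (i : Fin 2) :
    c.t0 (sch fun z => fderiv ℝ F z (mL i z.1, mL i z.2.1, mL i z.2.2)) = 0 := by
  set g : ℝ → V × V × V →L[ℝ] V × V × V :=
    fun t => 1 + t • tr3 (mL i) + t ^ 2 • tr3 (((1 / 2 : ℝ) • beL).smulRight va) with hg'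
  have e : ∀ t z, g t z + 0 = (gap (t • e2 i) z.1, gap (t • e2 i) z.2.1, gap (t • e2 i) z.2.2) :=
    fun t z => by simp only [add_zero, gap_eq]; rfl
  have h1 : ∀ t : ℝ, Dc fun x => F (g t x + 0) := fun t => by
    have := Api4.dc_comp_cle hF (ContinuousLinearEquiv.equivOfInverse (tr3 (gapL (t • e2 i)))
      (tr3 (gapL (-(t • e2 i)))) (fun z => by simp [tr3, gap_gap, Prod.map])
      fun z => by simp [tr3, gap_gap, Prod.map])
    simpa [e, tr3, Prod.map] using this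
  have hd : HasDerivAt g (tr3 (mL i)) 0 := by
    have := ((hasDerivAt_const (0 : ℝ) (1 : V × V × V →L[ℝ] V × V × V)).add
      ((hasDerivAt_id (0 : ℝ)).smul_const (tr3 (mL i)))).add
      ((hasDerivAt_pow 2 (0 : ℝ)).smul_const (tr3 (((1 / 2 : ℝ) • beL).smulRight va)))
    exact this.congr_deriv (by simp)
  have := der0 (t0L c) (a := fun _ => 0) (a' := 0) hd (hasDerivAt_const _ _) (by simp [hg']) rfl
    hF h1 fun t => t0_inv c (a := 0) (hg.lga (t • e2 i)).1
      (fun m => by rw [← be_bas, ← be_gap (z := bas m 1) (u := t • e2 i), ← (hg.lga _).2, sim_bas])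
      fun x y z => by
      rw [Api4.sch_apply (h1 t), Api4.sch_apply hF, e]
      simp only [(hg.lga _).2]
  simp only [add_zero] at this
  exact this

/-! ## the bilinear form `X` -/

/-- the three point function with the middle leg smeared with `h` -/
def X (Ψ : V × V → ℂ) (h : V → ℂ) : ℂ :=
  c.t0 (sch fun z : V × V × V => Ψ (z.1, z.2.2) * h z.2.1)

variable {c} {Ψ Ψ' : V × V → ℂ} {h h' : V → ℂ}

theorem X_add_l (a : Dc Ψ) (a' : Dc Ψ') (b : Dc h) :
    X c (fun z => Ψ z + Ψ' z) h = X c Ψ h + X c Ψ' h := by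
  simp only [X, add_mul]
  rw [Api4.sch_add (Far.dc_tri a b) (Far.dc_tri a' b), Far.t0_add]

theorem X_add_r (a : Dc Ψ) (b : Dc h) (b' : Dc h') :
    X c Ψ (fun z => h z + h' z) = X c Ψ h + X c Ψ h' := by
  simp only [X, mul_add]
  rw [Api4.sch_add (Far.dc_tri a b) (Far.dc_tri a b'), Far.t0_add]

theorem X_mul_l (a : Dc Ψ) (b : Dc h) (s : ℂ) : X c (fun z => s * Ψ z) h = s * X c Ψ h := by
  simp only [X, mul_assoc]
  rw [Api4.sch_const_mul s (Far.dc_tri a b)]
  exact (t0L c).map_smul s _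

theorem X_mul_r (a : Dc Ψ) (b : Dc h) (s : ℂ) : X c Ψ (fun z => s * h z) = s * X c Ψ h := by
  rw [← X_mul_l a b]
  simp only [X, mul_left_comm s, mul_assoc]

theorem fd_tri (a : Dc Ψ) (b : Dc h) (z v : V × V × V) :
    fderiv ℝ (fun z : V × V × V => Ψ (z.1, z.2.2) * h z.2.1) z v =
      fderiv ℝ Ψ (z.1, z.2.2) (v.1, v.2.2) * h z.2.1 + Ψ (z.1, z.2.2) * fderiv ℝ h z.2.1 v.2.1 := by
  have h1 := (a.1.differentiable (by simp) (z.1, z.2.2)).hasFDerivAt.comp z
    (f := fun z : V × V × V => (z.1, z.2.2)) (hasFDerivAt_fst.prodMk hasFDerivAt_snd.snd)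
  have h2 := (b.1.differentiable (by simp) z.2.1).hasFDerivAt.comp z
    (f := fun z : V × V × V => z.2.1) hasFDerivAt_snd.fst
  have := (h1.mul h2).fderiv
  simp only [Function.comp_def, Pi.mul_def] at this
  rw [this]
  simp [mul_comm, add_comm]

theorem X_tra [Fact c.tp] (a : Dc Ψ) (b : Dc h) (y : V) :
    X c (fun z => fderiv ℝ Ψ z (y, y)) h + X c Ψ (fun z => fderiv ℝ h z y) = 0 := by
  have := t0_tra c (Far.dc_tri a b) y
  simp only [fd_tri a b] at this
  rwa [Api4.sch_add (Far.dc_tri (Api4.dc_fderiv a contDiff_const) b)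
    (Far.dc_tri a (Api4.dc_fderiv b contDiff_const)), Far.t0_add] at this

theorem X_rot [Fact c.tp] (hg : GRP c) (a : Dc Ψ) (b : Dc h) (i : Fin 2) :
    X c (fun z => fderiv ℝ Ψ z (mL i z.1, mL i z.2)) h +
      X c Ψ (fun z => fderiv ℝ h z (mL i z)) = 0 := by
  have := t0_rot hg (Far.dc_tri a b) i
  simp only [fd_tri a b] at this
  rwa [Api4.sch_add (Far.dc_tri (Api4.dc_fderiv a (X := fun z => (mL i z.1, mL i z.2))
    ((mL i).prodMap (mL i)).contDiff) b)
    (Far.dc_tri a (Api4.dc_fderiv b (mL i).contDiff)), Far.t0_add] at this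

end

end Vale.Agent.P352X.IXH
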