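import Vale.Agent.P352X.R.IX.A
import Vale.Agent.P352X.Api1
import Vale.Agent.P352X.Api3d

/-!
# P352X, row IX, part B: quantitative bounds for the far part of the plane (helper80)
-/

set_option linter.all false

open MeasureTheory Filter Topology
open scoped SchwartzMap ComplexConjugate ENNReal ContDiff

namespace Vale.Agent.P352X.IXH

open Vale.Agent.P352 Vale.Agent.P352.GF Vale.Agent.P352.BW Vale.Agent.P352.H246
open Vale.Agent.P352.H496 Vale.Agent.P352.H755 Vale.Agent.P352.H15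
open UniformSpace (Completion)
open Complex (I)

noncomputable section

/-! ## functionals bounded by a seminorm -/

section sb

variable {E E' : Type*} [NormedAddCommGroup E] [NormedSpace ℝ E] [NormedAddCommGroup E']
  [NormedSpace ℝ E']

/-- `q` is bounded by a Schwartz seminorm -/
def SB (q : 𝓢(E, ℂ) → ℝ) : Prop := ∃ (m : ℕ) (C : ℝ), 0 ≤ C ∧ ∀ F, q F ≤ C * sn m F

variable {q q' : 𝓢(E, ℂ) → ℝ}

theorem sn_up {m m' : ℕ} {C : ℝ} (hC : 0 ≤ C) (h : m ≤ m') (F : 𝓢(E, ℂ)) :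
    C * sn m F ≤ C * sn m' F := mul_le_mul_of_nonneg_left (Lie.sn_mono h F) hC

theorem SB.add (h : SB q) (h' : SB q') : SB fun F => q F + q' F := by
  obtain ⟨m, C, hC, h⟩ := h
  obtain ⟨m', C', hC', h'⟩ := h'
  refine ⟨max m m', C + C', by positivity, fun F => ?_⟩
  rw [add_mul]
  exact add_le_add ((h F).trans (sn_up hC (le_max_left _ _) F))
    ((h' F).trans (sn_up hC' (le_max_right _ _) F))

theorem SB.sn (m : ℕ) {C : ℝ} (hC : 0 ≤ C) : SB fun F : 𝓢(E, ℂ) => C * sn m F :=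
  ⟨m, C, hC, fun _ => le_rfl⟩

theorem SB.mono (h : SB q) (e : ∀ F, q' F ≤ q F) : SB q' :=
  h.imp fun _ h => h.imp fun _ h => ⟨h.1, fun F => (e F).trans (h.2 F)⟩

theorem SB.clm {B : Type*} [NormedAddCommGroup B] [NormedSpace ℂ B] (P : 𝓢(E, ℂ) →L[ℂ] B) :
    SB fun F => ‖P F‖ := by
  obtain ⟨C, m, hC, h⟩ := ST.clm_sn_c P
  exact ⟨m, C, hC, fun F => by rw [Api4.sn_eq]; exact h F⟩

theorem SB.comp {q : 𝓢(E', ℂ) → ℝ} (h : SB q) (P : 𝓢(E, ℂ) →L[ℝ] 𝓢(E', ℂ)) :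
    SB fun F => q (P F) := by
  obtain ⟨m, C, hC, h⟩ := h
  obtain ⟨C', m', hC', h'⟩ := ST.clm_sn' P m
  refine ⟨m', C * C', by positivity, fun F => (h _).trans ?_⟩
  rw [mul_assoc, Api4.sn_eq, Api4.sn_eq]
  exact mul_le_mul_of_nonneg_left (h' F) hC

theorem sn_star {Ψ : E → ℂ} (h : Dc Ψ) (m : ℕ) :
    sn m (sch fun z => star (Ψ z)) ≤ 2 ^ m * sn m (sch Ψ) := by
  rw [Api4.sn_eq, Api4.sn_eq]
  refine (((ST.bd_sch (sch Ψ) (k := m) le_rfl le_rfl).star).congr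
    (ψ := sch fun z => star (Ψ z)) fun z => ?_).sn_le fun z => le_of_eq ?_
  · rw [Api4.sch_apply (Api4.dc_star h), Api4.sch_apply h]
  · field_simp

theorem sn_mul_le {F : E → ℂ} (h : Dc F) (a : ℂ) (m : ℕ) :
    sn m (sch fun z => a * F z) ≤ ‖a‖ * sn m (sch F) := by
  rw [Api4.sch_const_mul a h, Api4.sn_eq, Api4.sn_eq]
  exact ST.sn_smul a _ m

end sb

theorem sn_pr (m : ℕ) : ∃ C, 0 ≤ C ∧ ∀ g R, Tst g → Tst R →
    sn m (sch (pr g R)) ≤ C * sn m (sch (cx g)) * sn m (sch (cx R)) := by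
  obtain ⟨C, hC, h⟩ := Api4.sn_tenE plE m
  refine ⟨C, hC, fun g R hg hR => ?_⟩
  rw [show sch (pr g R) = _ from (congrArg sch (Ap.pr_eq g R)).trans
    (Api4.sch_tenE plE (Api4.dc_cx hg) (Api4.dc_cx hR))]
  exact h _ _

variable {D : Type*} [NormedAddCommGroup D] [InnerProductSpace ℂ D] {c : Ctx D}

theorem X_bd (c : Ctx D) : ∃ (m : ℕ) (C : ℝ), 0 ≤ C ∧ ∀ Ψ h, Dc Ψ → Dc h →
    ‖X c Ψ h‖ ≤ C * sn m (sch Ψ) * sn m (sch h) := by
  obtain ⟨m, C, hC, h⟩ := SB.clm (t0L c)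
  let e : (V × V × V) ≃L[ℝ] (V × V) × V := Far.sw2.trans (ContinuousLinearEquiv.prodAssoc ℝ V V V).symm
  obtain ⟨C', hC', h'⟩ := Api4.sn_tenE e m
  refine ⟨m, C * C', by positivity, fun Ψ f hΨ hf => ?_⟩
  have := (h _).trans (mul_le_mul_of_nonneg_left (h' (sch Ψ) (sch f)) hC)
  rw [← Api4.sch_tenE e hΨ hf, ← mul_assoc, ← mul_assoc] at this
  exact this

/-! ## the spectral measure at small `p_b` -/

theorem dens_bd (q : ℕ) : ∃ (m : ℕ) (C : ℝ), 0 ≤ C ∧ ∀ (f : Sch) (p : V),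
    nn p va * nn p va * ‖ft (ev f) p‖ ^ 2 ≤ (C * sn m f) ^ 2 * ((1 + ‖pm p‖) ^ q)⁻¹ := by
  obtain ⟨m, C, hC, h⟩ := ft_decay (q + 2)
  refine ⟨m, 8 * 2 ^ q * C, by positivity, fun f p => ?_⟩
  have h1 : ‖pm p‖ ≤ 2 * ‖p‖ := by
    rw [Prod.norm_def, max_le_iff, pm_1, pm_2, Real.norm_eq_abs]
    exact ⟨abs_be_le _, by linarith [norm_tx_le p, norm_nonneg p]⟩
  have h2 : nn p va ≤ 8 * (1 + ‖p‖) ^ 2 := by
    rw [nn_va, ← sq_abs]
    nlinarith [abs_be_le p, abs_nonneg (be p), norm_nonneg p]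
  have h3 : 0 ≤ nn p va := by rw [nn_va]; positivity
  have h4 : (1 + ‖pm p‖) ^ q ≤ (2 ^ q * (1 + ‖p‖) ^ q) ^ 2 := by
    have a : (1 + ‖pm p‖) ^ q ≤ 2 ^ q * (1 + ‖p‖) ^ q := by
      rw [← mul_pow]
      gcongr
      linarith
    have b : 1 ≤ 2 ^ q * (1 + ‖p‖) ^ q :=
      one_le_mul_of_one_le_of_one_le (one_le_pow₀ one_le_two)
        (one_le_pow₀ (by linarith [norm_nonneg p]))
    nlinarith
  rw [← div_eq_mul_inv, le_div_iff₀ (by positivity)]
  calc nn p va * nn p va * ‖ft (ev f) p‖ ^ 2 * (1 + ‖pm p‖) ^ q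
      ≤ (8 * (1 + ‖p‖) ^ 2) * (8 * (1 + ‖p‖) ^ 2) * ‖ft (ev f) p‖ ^ 2 *
        (2 ^ q * (1 + ‖p‖) ^ q) ^ 2 := by gcongr
    _ = (8 * 2 ^ q * ((1 + ‖p‖) ^ (q + 2) * ‖ft (ev f) p‖)) ^ 2 := by ring
    _ ≤ (8 * 2 ^ q * (C * sn m f)) ^ 2 :=
        pow_le_pow_left₀ (by positivity) (mul_le_mul_of_nonneg_left (h f p) (by positivity)) 2
    _ = _ := by ring

theorem nu_bd (ht : TWO c) : ∃ (m : ℕ) (C : ℝ), 0 ≤ C ∧ ∀ (f : Sch) (s : ℝ), 0 < s →
    c.nu (c.Tv (hk va va (ev f))) {p | al p < s} ≤ ENNReal.ofReal ((C * sn m f) ^ 2 * s) := by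
  obtain ⟨C0, hC0, ht⟩ := ht
  have hw := Api4.integrable_w (volume : Measure P3)
  obtain ⟨m, C, hC, h⟩ := dens_bd (volume : Measure P3).integrablePower
  set w : P3 → ℝ := fun y => ((1 + ‖y‖) ^ (volume : Measure P3).integrablePower)⁻¹ with hw'
  have hw0 : 0 ≤ ∫ y, w y := integral_nonneg fun y => by positivity
  refine ⟨m, Real.sqrt (C0 * ∫ y, w y) * C, by positivity, fun f s hs => ?_⟩
  have hS : MeasurableSet {p : V | al p < s} := measurableSet_lt meas_al measurable_const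
  set K := C0 * (C * sn m f) ^ 2 with hK
  have hK0 : 0 ≤ K := by positivity
  have hi : Integrable ((Set.Ioo 0 s).indicator fun _ : ℝ => (1 : ℝ)) :=
    (integrable_indicator_iff measurableSet_Ioo).2 (integrableOn_const (by simp))
  refine (ht va va _ ⟨f, rfl⟩ _).trans ?_
  rw [withDensity_apply _ hS, Measure.restrict_restrict hS, ← lintegral_indicator (hS.inter meas_Fc)]
  refine (lintegral_mono (g := fun p => ENNReal.ofReal (K * w (pm p) *
    (Set.Ioo 0 s).indicator (fun _ : ℝ => (1 : ℝ)) (al p))) fun p => ?_).trans (le_of_eq ?_)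
  · by_cases hp : p ∈ {p : V | al p < s} ∩ Fc
    · beta_reduce
      rw [Set.indicator_of_mem hp, Set.indicator_of_mem (show al p ∈ Set.Ioo 0 s from
        ⟨((mem_Fc' _).1 hp.2).1, hp.1⟩), mul_one]
      refine ENNReal.ofReal_le_ofReal ?_
      have := mul_le_mul_of_nonneg_left (h f p) hC0
      simpa only [hK, mul_assoc] using this
    · rw [Set.indicator_of_notMem hp]
      exact zero_le
  · rw [← ofReal_integral_eq_lintegral_ofReal (integrable_pm_al (hw.const_mul K) hi)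
      (Eventually.of_forall fun p => mul_nonneg (by positivity)
        (Set.indicator_nonneg (fun _ _ => zero_le_one) _)),
      integral_pm_al (fun y => K * w y), integral_const_mul, integral_indicator measurableSet_Ioo]
    congr 1
    have := Real.sq_sqrt (mul_nonneg hC0 hw0)
    simp only [integral_const, smul_eq_mul, mul_one, MeasurableSet.univ, measureReal_restrict_apply,
      Set.univ_inter, Real.volume_real_Ioo, sub_zero, max_eq_left hs.le, hK, mul_pow, this]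
    ring

/-! ## the two leg vectors -/

theorem om_om (c : Ctx D) : inner ℂ c.Om c.Om = 1 := by
  rw [inner_self_eq_norm_sq_to_K, Ctx.Om, om, Completion.norm_coe, c.Q.norm_vac]
  simp

/-- the part of `w(Θ, Θ)` orthogonal to the vacuum -/
def wP (c : Ctx D) (w : I2 → I2 → S2 →L[ℂ] Completion D) : S2 →L[ℂ] Completion D where
  toFun F := Far.wTT w F - inner ℂ c.Om (Far.wTT w F) • c.Om
  map_add' F G := by
    simp only [Far.wTT, map_add, smul_add, Finset.sum_add_distrib, inner_add_right, add_smul]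
    abel
  map_smul' a F := by
    simp only [Far.wTT, map_smul, smul_comm _ a, ← Finset.smul_sum, inner_smul_right,
      RingHom.id_apply, smul_sub, mul_smul]
  cont := by
    have : Continuous (Far.wTT w) := continuous_finset_sum _ fun m _ =>
      continuous_finset_sum _ fun n _ => (w (m, m) (n, n)).continuous.fun_const_smul _
    have h : Continuous fun F => inner ℂ c.Om (Far.wTT w F) := continuous_const.inner this
    exact this.sub (h.fun_smul continuous_const)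

theorem wP_apply (w : I2 → I2 → S2 →L[ℂ] Completion D) (F : S2) :
    wP c w F = Far.wTT w F - inner ℂ c.Om (Far.wTT w F) • c.Om := rfl

theorem om_U (hg : GRP c) (s : ℝ) (L : Ix → V) (a : V) (v : Completion D) :
    inner ℂ c.Om (Ug c.Q s L a v) = inner ℂ c.Om v := by
  rw [← inner_unitary (hg.uni s L a) c.Om v, hg.vac]

theorem wP_cov (hg : GRP c) {e : Bool} {w : I2 → I2 → S2 →L[ℂ] Completion D}
    (hw : TP2 c.Q c.T e w) {L : Ix → V} (hL : IsLor L) {F G : S2}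
    (h : ∀ x y, G (x, y) = F (sim 1 L 0 x, sim 1 L 0 y)) : wP c w F = Ug c.Q 1 L 0 (wP c w G) := by
  obtain ⟨κ, hκ⟩ := wTT_cov hw hL h
  rw [wP_apply, wP_apply, hκ, map_sub, map_smul, hg.vac, inner_add_right, om_U hg, inner_smul_right,
    om_om, mul_one, add_smul]
  abel

theorem gbp_eq (s : ℝ) (z : V) : gbp s z = z + s • ((-mdL (ex 0)).smulRight vb +
    alL.smulRight (ex 0)) z + s ^ 2 • ((1 / 2 : ℝ) • alL).smulRight vb z :=
  null_ext (by simp) (by simp [md_ex]; ring) (by simp [smul_smul])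

theorem gb_near : ∃ K : ℝ, 1 ≤ K ∧ ∀ s : ℝ, |s| ≤ 1 →
    ‖(gbpL s).prodMap (gbpL s) - 1‖ ≤ K * |s| := by
  set A := (-mdL (ex 0)).smulRight vb + alL.smulRight (ex 0)
  set B := ((1 / 2 : ℝ) • alL).smulRight vb
  have hA := norm_nonneg (A.prodMap A)
  have hB := norm_nonneg (B.prodMap B)
  refine ⟨1 + ‖A.prodMap A‖ + ‖B.prodMap B‖, by linarith, fun s hs => ?_⟩
  have e : (gbpL s).prodMap (gbpL s) - 1 = s • A.prodMap A + s ^ 2 • B.prodMap B :=
    ContinuousLinearMap.ext fun z => Prod.ext (by simp [gbp_eq s z.1, A, B]; abel)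
      (by simp [gbp_eq s z.2, A, B]; abel)
  rw [e]
  refine (norm_add_le _ _).trans ?_
  rw [norm_smul, norm_smul, norm_pow, Real.norm_eq_abs]
  have : |s| ^ 2 ≤ |s| := by nlinarith [abs_nonneg s]
  nlinarith [abs_nonneg s]

theorem wP_lip (hg : GRP c) {e : Bool} {w : I2 → I2 → S2 →L[ℂ] Completion D}
    (hw : TP2 c.Q c.T e w) : ∃ (m : ℕ) (C : ℝ), 0 ≤ C ∧ ∀ G s,
      ‖Gb c.Q s (wP c w G) - wP c w G‖ ≤ C * sn m G * |s| := by
  obtain ⟨m, C, hC, h⟩ := SB.clm (wP c w)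
  obtain ⟨K, hK, hK'⟩ := gb_near
  set M : ℝ := (m * 2 ^ m + 1) * 4 ^ (m + 1) with hM
  have hM0 : 0 ≤ M := by positivity
  refine ⟨m + 1, C * M * K + 4 * K * C, by positivity, fun G s => ?_⟩
  have hG := Lie.sn_nonneg (m + 1) G
  have h0 := (h G).trans (sn_up hC (Nat.le_succ m) G)
  rcases le_total (K * |s|) (1 / 2) with hs | hs
  · let g : (V × V) ≃L[ℝ] V × V := .equivOfInverse ((gbpL (-s)).prodMap (gbpL (-s)))
      ((gbpL s).prodMap (gbpL s)) (fun z => by simp [gbp_gbp, Prod.map])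
      fun z => by simp [gbp_gbp, Prod.map]
    let F : S2 := SchwartzMap.compCLMOfContinuousLinearEquiv ℂ g G
    have h1 : wP c w F = Gb c.Q s (wP c w G) := wP_cov hg hw (hg.lgb s).1 fun x y => by
      simp only [(hg.lgb s).2]
      exact congrArg G (by simp [g, gbp_gbp])
    have h2 := Lie.lip (m := m) (F := G) (G := F) (a := 0) hs
      ((hK' (-s) (by rw [abs_neg]; nlinarith [abs_nonneg s])).trans_eq (by rw [abs_neg]))
      (by rw [norm_zero]; positivity) fun x => by rw [add_zero]; rfl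
    rw [← h1, ← map_sub]
    refine (h _).trans ((mul_le_mul_of_nonneg_left h2 hC).trans ?_)
    have : 0 ≤ 4 * K * C * sn (m + 1) G * |s| := by positivity
    nlinarith
  · have h1 : ‖Gb c.Q s (wP c w G)‖ = ‖wP c w G‖ :=
      ContinuousLinearMap.norm_map_of_mem_unitary (hg.uni _ _ _) _
    refine (norm_sub_le _ _).trans ?_
    have : 0 ≤ C * M * K * sn (m + 1) G * |s| := by positivity
    have := mul_le_mul_of_nonneg_left hs (mul_nonneg hC hG)
    nlinarith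

/-- **Tails.** -/
theorem tail2 (t : T3 c) : ∃ κ : ℝ, 0 < κ ∧ ∀ e w, TP2 c.Q c.T e w → ∃ (m : ℕ) (C : ℝ), 0 ≤ C ∧
    ∀ (f : Sch) (G : S2) (L : ℝ), 1 ≤ L →
      ‖inner ℂ (Usc c.Q L 1 (c.Tv (hk va va (ev f)))) (Far.wTT w G)‖ ≤
        C * L ^ (-κ) * sn m G * sn m f := by
  obtain ⟨C0, κ, hκ, h0⟩ := t.bas.tail
  refine ⟨κ, hκ, fun e w hw => ?_⟩
  obtain ⟨m1, C1, hC1, h1⟩ := wP_lip t.grp hw
  obtain ⟨m2, C2, hC2, h2⟩ := nu_bd t.two
  obtain ⟨m3, C3, h3⟩ := t.gen.bd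
  have b3 : SB fun f : Sch => ‖c.Tv (hk va va (ev f))‖ :=
    (SB.sn m3 (abs_nonneg (C3 * ‖va‖ * ‖va‖))).mono fun f => (h3 _ _ f).trans
      (mul_le_mul_of_nonneg_right (le_abs_self _) (Lie.sn_nonneg _ _))
  obtain ⟨m4, C4, hC4, h4⟩ := (SB.clm (wP c w)).add (SB.sn m1 hC1)
  obtain ⟨m5, C5, hC5, h5⟩ := ((SB.sn m2 hC2).add b3).add
    (b3.comp (LineDeriv.lineDerivOpCLM ℝ Sch va))
  refine ⟨max m4 m5, |C0| * C4 * C5, by positivity, fun f G L hL => ?_⟩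
  have hf : IsTest (ev f) := ⟨f, rfl⟩
  have hd := t.gen.ut va va va _ hf
  have e1 : dv va (ev f) = ev (LineDeriv.lineDerivOpCLM ℝ Sch va f) := by
    rw [dv_test hf]
    exact funext fun x => (SchwartzMap.lineDerivOp_apply_eq_fderiv _ _ _).symm
  have e2 : inner ℂ (Usc c.Q L 1 (c.Tv (hk va va (ev f)))) (Far.wTT w G) =
      inner ℂ (Usc c.Q L 1 (c.Tv (hk va va (ev f)))) (wP c w G) := by
    rw [wP_apply, inner_sub_right, inner_smul_right, ← inner_conj_symm _ c.Om, Usc, om_U t.grp,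
      Far.perp_Tv t.grp _ _ hf, map_zero, mul_zero, sub_zero]
  have hs := Lie.sn_nonneg m2 f
  have := h0 _ (wP c w G) _ _ L hL (mul_nonneg hC2 hs) hd.dm (h1 G) fun s hs => h2 f s hs.1
  rw [show gen (Pa c.Q) _ = _ from hd.gen_eq, norm_smul, Complex.norm_I, one_mul, e1] at this
  rw [e2]
  refine this.trans ?_
  have a1 := (h4 G).trans (sn_up hC4 (le_max_left m4 m5) G)
  have a2 := (h5 f).trans (sn_up hC5 (le_max_right m4 m5) f)
  have a3 : 0 ≤ L ^ (-κ) := Real.rpow_nonneg (by linarith) _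
  have a4 := Lie.sn_nonneg m1 G
  have a5 := Lie.sn_nonneg (max m4 m5) G
  calc _ ≤ |C0| * L ^ (-κ) * (C4 * sn (max m4 m5) G) * (C5 * sn (max m4 m5) f) := by
        gcongr
        exact le_abs_self _
    _ = _ := by ring

/-- **The far part of the plane.** -/
theorem far_bd [Fact c.tp] (t : T3 c) : ∃ κ : ℝ, 0 < κ ∧ ∃ m : ℕ, ∀ g r, Tst g → (0 : P3) ∉ tsupport g →
    ∃ C A : ℝ, 0 ≤ C ∧ 1 ≤ A ∧ ∀ L Ψ R, A ≤ L → Dc Ψ → tsupport Ψ ⊆ Metric.closedBall 0 r →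
      Tst R → tsupport R ⊆ Set.Icc (-1) 1 → ‖(L : ℂ) * X c Ψ (pr (kL g L) R)‖ ≤
        C * L ^ (-κ) * sn m (sch Ψ) * sn m (sch (cx R)) := by
  obtain ⟨κ, hκ, h⟩ := tail2 t
  obtain ⟨m1, C1, hC1, h1⟩ := h _ _ c.hTP.tp
  obtain ⟨m2, C2, hC2, h2⟩ := h _ _ c.hTP.tm
  set m := max m1 m2
  obtain ⟨C3, hC3, h3⟩ := sn_pr m
  refine ⟨κ, hκ, m, fun g r hg h0 => ?_⟩
  obtain ⟨gp, gm, A, a1, a2, -, -, -, -, a7⟩ := Far.far_fac t.grp hg h0 r 1
  have b1 := Lie.sn_nonneg m (sch (cx gp))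
  have b2 := Lie.sn_nonneg m (sch (cx gm))
  refine ⟨C1 * (C3 * sn m (sch (cx gp))) + C2 * 2 ^ m * (C3 * sn m (sch (cx gm))), max A 1,
    by positivity, le_max_right _ _, fun L Ψ R hL hΨ hr hR hs => ?_⟩
  have hL1 := (le_max_right _ _).trans hL
  have a3 : 0 ≤ L ^ (-κ) := Real.rpow_nonneg (by linarith) _
  have d1 := h1 (sch (pr gp R)) (sch Ψ) L hL1
  have d2 := h2 (sch (pr gm R)) (sch fun z => star (Ψ z)) L hL1
  rw [ev, Api4.coe_sch (Far.dc_pr a1 hR)] at d1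
  rw [ev, Api4.coe_sch (Far.dc_pr a2 hR), norm_inner_symm] at d2
  have b3 := Lie.sn_nonneg m (sch Ψ)
  have b4 := Lie.sn_nonneg m1 (sch (pr gp R))
  have b5 := Lie.sn_nonneg m2 (sch (pr gm R))
  have d3 : C1 * L ^ (-κ) * sn m1 (sch Ψ) * sn m1 (sch (pr gp R)) ≤
      C1 * L ^ (-κ) * sn m (sch Ψ) * (C3 * sn m (sch (cx gp)) * sn m (sch (cx R))) := by
    gcongr
    exacts [Lie.sn_mono (le_max_left _ _) _,
      (Lie.sn_mono (le_max_left _ _) _).trans (h3 _ _ a1 hR)]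
  have d4 : C2 * L ^ (-κ) * sn m2 (sch fun z => star (Ψ z)) * sn m2 (sch (pr gm R)) ≤
      C2 * L ^ (-κ) * (2 ^ m * sn m (sch Ψ)) * (C3 * sn m (sch (cx gm)) * sn m (sch (cx R))) := by
    gcongr
    exacts [(Lie.sn_mono (le_max_right _ _) _).trans (sn_star hΨ m),
      (Lie.sn_mono (le_max_right _ _) _).trans (h3 _ _ a2 hR)]
  rw [show (L : ℂ) * X c Ψ (pr (kL g L) R) = _ from
    a7 L ((le_max_left _ _).trans hL) R Ψ hR hs hΨ hr]
  refine (norm_add_le _ _).trans ((add_le_add (d1.trans d3) (d2.trans d4)).trans_eq ?_)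
  ring

end

end Vale.Agent.P352X.IXH
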