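import Vale.Agent.P352X.R.IX.C

/-!
# P352X, row IX, part D: the classes of test functions and the Ward identity (helper80)
-/

set_option linter.all false

open MeasureTheory Filter Topology
open scoped SchwartzMap ComplexConjugate ENNReal ContDiff

namespace Vale.Agent.P352X.IXH

open Vale.Agent.P352 Vale.Agent.P352.GF Vale.Agent.P352.BW Vale.Agent.P352.H246
open Vale.Agent.P352.H496 Vale.Agent.P352.H755 Vale.Agent.P352.H15
open UniformSpace (Completion)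
open Complex (I)
open CK.Near (Nb ex_Nb)

noncomputable section

/-! ## functions on the plane -/

/-- the derivative along `al` -/
def da (g : P3 → ℝ) : P3 → ℝ := fun y => fderiv ℝ g y (1, 0)
/-- the transverse derivatives -/
def di (i : Fin 2) (g : P3 → ℝ) : P3 → ℝ := fun y => dx g y (e2 i)
/-- multiplication by a transverse coordinate -/
def xi (i : Fin 2) (g : P3 → ℝ) : P3 → ℝ := fun y => y.2 i * g y

section plane

variable {g : P3 → ℝ} {j : ℕ} {L : ℝ} (i : Fin 2)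

theorem tst_da (h : Tst g) : Tst (da g) := Ap.cs_fderiv _ h
theorem tst_di (h : Tst g) : Tst (di i g) := Ap.tst_dx h _
theorem tst_xi (h : Tst g) : Tst (xi i g) := Ap.cs_mul_l (by fun_prop) h

theorem fd_gS (h : Tst g) (y v : P3) :
    fderiv ℝ (gS j g L) y v = L / Real.sqrt L ^ j * fderiv ℝ (kL g L) y v := by
  rw [show gS j g L = fun y => L / Real.sqrt L ^ j * kL g L y from rfl,
    fderiv_const_mul ((Ap.smooth_kL h.1 L).differentiable (by simp) y)]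
  rfl

theorem da_gS (h : Tst g) (hL : 0 < L) : da (gS j g L) = gS (j + 2) (da g) L := funext fun y => by
  have := Real.sqrt_pos.2 hL
  rw [da, fd_gS h, Ap.da_kL (h.1.differentiable (by simp)), gS, pow_add, Real.sq_sqrt hL.le]
  change _ * (_ * kL (da g) L y) = _
  field_simp

theorem di_gS (h : Tst g) (hL : 0 < L) : di i (gS j g L) = gS (j + 1) (di i g) L :=
  funext fun y => by
  have := Real.sqrt_pos.2 hL
  rw [di, dx, fd_gS h, ← dx, Ap.dx_kL (h.1.differentiable (by simp)), gS, pow_succ]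
  change _ * (_ * kL (di i g) L y) = _
  field_simp

theorem xi_gS (hL : 0 < L) : xi i (gS (j + 1) g L) = gS j (xi i g) L := funext fun y => by
  have := Real.sqrt_pos.2 hL
  simp only [xi, gS, kL, pow_succ, Pi.smul_apply, smul_eq_mul]
  field_simp

theorem gS_two (hL : 0 < L) : gS 2 g L = kL g L := funext fun y => by
  rw [gS, Real.sq_sqrt hL.le, div_self hL.ne', one_mul]

theorem sqrt4 : (Real.sqrt (1 / 4))⁻¹ = 2 := by
  rw [show (1 / 4 : ℝ) = (1 / 2) ^ 2 by norm_num, Real.sqrt_sq (by norm_num)]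
  norm_num

theorem KC.fd (h : KC j g) : ∀ᶠ y in 𝓝 (0 : P3), ∀ v : P3,
    fderiv ℝ g y v = fderiv ℝ g (0, y.2) (0, v.2) := by
  filter_upwards [h.al.eventually_nhds] with y hy v
  have h1 := (h.tst.1.differentiable (by simp) (0, y.2)).hasFDerivAt.comp y
    (f := fun y : P3 => ((0 : ℝ), y.2)) ((hasFDerivAt_const _ _).prodMk hasFDerivAt_snd)
  rw [EventuallyEq.fderiv_eq hy]
  refine (congrArg (· v) h1.fderiv).trans ?_
  simp

theorem KC.da0 (h : KC j g) : (0 : P3) ∉ tsupport (da g) :=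
  notMem_tsupport_iff_eventuallyEq.2 (h.fd.mono fun y hy => (hy _).trans (map_zero _))

theorem KC.xda0 (h : KC j g) : (0 : P3) ∉ tsupport (xi i (da g)) :=
  fun k => h.da0 (tsupport_mul_subset_right k)

theorem KC.di (h : KC j g) : KC (j + 1) (di i g) := by
  refine ⟨tst_di i h.tst, h.fd.mono fun y hy => hy _, ?_⟩
  filter_upwards [h.hom.eventually_nhds] with y hy
  rw [IXH.di, dx, EventuallyEq.fderiv_eq hy,
    fderiv_const_mul ((Ap.smooth_kL h.tst.1 _).differentiable (by simp) y)]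
  change _ * dx (kL g (1 / 4)) y (e2 i) = _
  rw [Ap.dx_kL (h.tst.1.differentiable (by simp)), sqrt4, pow_succ]
  change _ * (_ * kL (IXH.di i g) _ y) = _
  ring

theorem KC.xi (h : KC (j + 1) g) : KC j (xi i g) := by
  refine ⟨tst_xi i h.tst, h.al.mono fun y hy => congrArg (y.2 i * ·) hy, h.hom.mono fun y hy => ?_⟩
  rw [IXH.xi, hy]
  simp only [IXH.xi, kL, sqrt4, pow_succ, Pi.smul_apply, smul_eq_mul]
  ring

theorem kc_cut (h : Cut g) : KC 2 g := by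
  refine ⟨h.1, ?_, ?_⟩
  · have : Tendsto (fun y : P3 => ((0 : ℝ), y.2)) (𝓝 0) (𝓝 0) :=
      Continuous.tendsto' (by fun_prop) _ _ rfl
    filter_upwards [h.2, this.eventually h.2] with y a b
    rw [a, b]
  · filter_upwards [h.2, (Ap.cut_kL h (L := 1 / 4) (by norm_num)).2] with y a b
    rw [a, b]
    norm_num

end plane

/-! ## moments -/

/-- test functions with `n` vanishing moments -/
def Mom (n : ℕ) (k : ℝ → ℝ) : Prop := Tst k ∧ ∀ j < n, ∫ t, t ^ j * k t = 0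

theorem Mom.prim {n : ℕ} {k : ℝ → ℝ} (h : Mom (n + 1) k) : ∃ K, Mom n K ∧ deriv K = k := by
  obtain ⟨R, -, hR⟩ := Ap.ex_Icc h.1
  obtain ⟨K, tK, -, e, -⟩ := CK.prim0 h.1 hR (by simpa using h.2 0 (Nat.succ_pos n))
  refine ⟨K, ⟨tK, fun j hj => ?_⟩, funext e⟩
  have i1 : Integrable fun t => ((j + 1 : ℕ) : ℝ) * (t ^ j * K t) :=
    (Ap.cs_int (Ap.cs_mul_l (contDiff_id.pow j) tK)).const_mul _
  have i2 : Integrable fun t => t ^ (j + 1) * k t :=
    Ap.cs_int (Ap.cs_mul_l (contDiff_id.pow _) h.1)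
  have := integral_eq_zero_of_hasDerivAt_of_integrable (f := fun t => t ^ (j + 1) * K t)
    (f' := fun t => ((j + 1 : ℕ) : ℝ) * (t ^ j * K t) + t ^ (j + 1) * k t)
    (fun t => ((hasDerivAt_pow (j + 1) t).mul
      (tK.1.differentiable (by simp) t).hasDerivAt).congr_deriv (by rw [e, mul_assoc]; rfl))
    (i1.add i2) (Ap.cs_int (Ap.cs_mul_l (contDiff_id.pow _) tK))
  rw [integral_add i1 i2, h.2 _ (by omega), add_zero, integral_const_mul] at this
  exact (mul_eq_zero.1 this).resolve_left (by positivity)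

theorem Mom.mul {n : ℕ} {k : ℝ → ℝ} (h : Mom (n + 1) k) : Mom n fun t => t * k t :=
  ⟨Ap.cs_mul_l contDiff_id h.1, fun j hj => by
    simpa only [pow_succ, mul_assoc] using h.2 (j + 1) (by omega)⟩

theorem Mom.mono {n : ℕ} {k : ℝ → ℝ} (h : Mom (n + 1) k) : Mom n k :=
  ⟨h.1, fun j hj => h.2 j (by omega)⟩

/-! ## functions of the two legs -/

/-- the variables `((al1, x1), x3), (be1, be3)` -/
abbrev E5 := (P3 × R2) × ℝ × ℝ

open ContinuousLinearMap (fst snd) in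
/-- the coordinates of the two legs, with `be` scaled -/
def BL (ε : ℝ) : V × V →L[ℝ] E5 × ℝ :=
  (((plL ∘L fst ℝ V V).prod (txL ∘L snd ℝ V V)).prod
    (((ε⁻¹ • beL) ∘L fst ℝ V V).prod ((ε⁻¹ • beL) ∘L snd ℝ V V))).prod (alL ∘L snd ℝ V V)

theorem BL_apply (ε : ℝ) (z : V × V) :
    BL ε z = (((pl z.1, tx z.2), (ε⁻¹ * be z.1, ε⁻¹ * be z.2)), al z.2) := rfl

theorem le_BL {ε : ℝ} (h : ε ∈ Set.Ioc (0 : ℝ) 1) (z : V × V) : ‖z‖ ≤ 3 * ‖BL ε z‖ := by
  have e : ∀ t : ℝ, |t| ≤ ‖ε⁻¹ * t‖ := fun t => by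
    rw [Real.norm_eq_abs, abs_mul, abs_of_pos (inv_pos.2 h.1)]
    exact le_mul_of_one_le_left (abs_nonneg t) ((one_le_inv₀ h.1).2 h.2)
  have k : ∀ x : V, ‖x‖ ≤ |al x| + |be x| + ‖tx x‖ := fun x =>
    (congrArg norm (pt_eta x).symm).trans_le (norm_pt_le ..)
  have b1 := norm_fst_le (BL ε z)
  have b2 := (norm_fst_le _).trans b1
  have b3 := (norm_snd_le _).trans b1
  have b4 := (norm_fst_le _).trans b2
  have a1 : |al z.1| ≤ _ := (norm_fst_le _).trans b4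
  have a2 : ‖tx z.1‖ ≤ _ := (norm_snd_le _).trans b4
  have a3 : ‖tx z.2‖ ≤ _ := (norm_snd_le _).trans b2
  have a4 : ‖ε⁻¹ * be z.1‖ ≤ _ := (norm_fst_le _).trans b3
  have a5 : ‖ε⁻¹ * be z.2‖ ≤ _ := (norm_snd_le _).trans b3
  have a6 : |al z.2| ≤ _ := norm_snd_le (BL ε z)
  rw [Prod.norm_def z, max_le_iff]
  constructor <;> linarith [k z.1, k z.2, e (be z.1), e (be z.2)]

theorem norm_BL {ε : ℝ} (h : ε ∈ Set.Ioc (0 : ℝ) 1) : ‖BL ε‖ ≤ 2 * ε⁻¹ := by
  have h1 := (one_le_inv₀ h.1).2 h.2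
  refine ContinuousLinearMap.opNorm_le_bound _ (by linarith) fun z => ?_
  have b1 := norm_fst_le z
  have b2 := norm_snd_le z
  have b3 : ‖z‖ ≤ 2 * ε⁻¹ * ‖z‖ := le_mul_of_one_le_left (norm_nonneg z) (by linarith)
  have e : ∀ x : V, ‖x‖ ≤ ‖z‖ → ‖ε⁻¹ * be x‖ ≤ 2 * ε⁻¹ * ‖z‖ := fun x hx => by
    rw [Real.norm_eq_abs, abs_mul, abs_of_pos (inv_pos.2 h.1)]
    nlinarith [abs_be_le x]
  simp only [BL_apply, Prod.norm_def (x := (_, _)), pl, max_le_iff]
  exact ⟨⟨⟨⟨((abs_al_le _).trans b1).trans b3, ((norm_tx_le _).trans b1).trans b3⟩,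
    ((norm_tx_le _).trans b2).trans b3⟩, e _ b1, e _ b2⟩, ((abs_al_le _).trans b2).trans b3⟩

/-- `G ⊗ K` -/
def ten (G : E5 → ℂ) (K : ℝ → ℝ) : E5 × ℝ → ℂ := fun w => G w.1 * cx K w.2

/-- the test function of the two legs -/
def Ps (G : E5 → ℂ) (K : ℝ → ℝ) (ε : ℝ) : V × V → ℂ := fun z => ten G K (BL ε z)

section legs

variable {G : E5 → ℂ} {K : ℝ → ℝ} {ε : ℝ}

theorem dc_ten (hG : Dc G) (hK : Tst K) : Dc (ten G K) := Api4.dc_tens hG (Api4.dc_cx hK)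

theorem dc_Ps (hG : Dc G) (hK : Tst K) (h : ε ∈ Set.Ioc (0 : ℝ) 1) : Dc (Ps G K ε) :=
  Ap.cs_comp (f := ten G K) (e := BL ε) (BL ε).contDiff (fun S hS => by
    obtain ⟨r, hr⟩ := isBounded_iff_forall_norm_le.1 hS.isBounded
    exact isBounded_iff_forall_norm_le.2 ⟨3 * r, fun z hz => by linarith [le_BL h z, hr _ hz]⟩)
    (dc_ten hG hK)

theorem supp_Ps (hG : Dc G) (hK : Tst K) : ∃ r, ∀ ε ∈ Set.Ioc (0 : ℝ) 1,
    tsupport (Ps G K ε) ⊆ Metric.closedBall 0 r := by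
  obtain ⟨r, hr⟩ := isBounded_iff_forall_norm_le.1 (dc_ten hG hK).2.isCompact.isBounded
  refine ⟨3 * r, fun ε h => Ap.tsupp_sub Metric.isClosed_closedBall fun z hz => ?_⟩
  rw [mem_closedBall_zero_iff]
  linarith [le_BL h z, hr _ (subset_tsupport _ hz)]

theorem sn_Ps (hG : Dc G) (hK : Tst K) (m : ℕ) : ∃ C, 0 ≤ C ∧ ∀ ε ∈ Set.Ioc (0 : ℝ) 1,
    sn m (sch (Ps G K ε)) ≤ C * ε⁻¹ ^ m := by
  have := Lie.sn_nonneg m (sch (ten G K))
  refine ⟨2 ^ m * 2 ^ m * 3 ^ m * sn m (sch (ten G K)), by positivity, fun ε h => ?_⟩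
  have := ST.sn_comp (BL ε) (by linarith [(one_le_inv₀ h.1).2 h.2]) (norm_BL h) (by norm_num)
    (le_BL h) (sch (ten G K)) (sch (Ps G K ε)) (fun z => by
      rw [Api4.sch_apply (dc_Ps hG hK h), Api4.sch_apply (dc_ten hG hK), Ps]) m
  rw [Api4.sn_eq, Api4.sn_eq]
  exact this.trans_eq (by rw [mul_pow]; ring)

theorem fd_Ps (hG : Dc G) (hK : Tst K) (z v : V × V) : fderiv ℝ (Ps G K ε) z v =
    fderiv ℝ G (BL ε z).1 (BL ε v).1 * K (al z.2) +
      G (BL ε z).1 * (al v.2 * deriv K (al z.2) : ℝ) := by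
  have h1 := (hG.1.differentiable (by simp) (BL ε z).1).hasFDerivAt.comp z
    (f := fun z => (BL ε z).1) (BL ε).hasFDerivAt.fst
  have h2 := ((hK.1.differentiable (by simp) (al z.2)).hasDerivAt.ofReal_comp).hasFDerivAt.comp z
    (f := fun z : V × V => al z.2) (alL.hasFDerivAt.comp z hasFDerivAt_snd)
  refine (congrArg (· v) (h1.mul h2).fderiv).trans ?_
  simp [mul_comm, add_comm]

/-- the vector field `be1 ∂_{x1} + be3 ∂_{x3}` -/
def NL (i : Fin 2) (u : E5) : E5 := (((0, u.2.1 • e2 i), u.2.2 • e2 i), 0)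

theorem smooth_NL (i : Fin 2) : ContDiff ℝ ∞ (NL i) := by
  unfold NL
  fun_prop

/-- multiplication by real functions -/
def mu5 (φ : E5 → ℝ) (G : E5 → ℂ) : E5 → ℂ := fun u => φ u * G u

theorem dc_mu5 {φ : E5 → ℝ} (h : ContDiff ℝ ∞ φ) (hG : Dc G) : Dc (mu5 φ G) :=
  Api4.dc_mul_left (Ap.smooth_cx h) hG

theorem rot_Ps (hG : Dc G) (hK : Tst K) (h : ε ≠ 0) (i : Fin 2) (z : V × V) :
    fderiv ℝ (Ps G K ε) z (mL i z.1, mL i z.2) =
      fderiv ℝ (Ps (mu5 (fun u => u.1.1.2 i) G) K ε) z (va, va) +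
      (ε * Ps (fun u => fderiv ℝ G u (NL i u)) K ε z +
        Ps (mu5 (fun u => u.1.2 i - u.1.1.2 i) G) (deriv K) ε z) := by
  have e1 : (BL ε (mL i z.1, mL i z.2)).1 =
      tx z.1 i • (BL ε (va, va)).1 + ε • NL i (BL ε z).1 := by
    simp [BL_apply, mL_apply, NL, pl, smul_smul, h]
  have e2 : fderiv ℝ (mu5 (fun u => u.1.1.2 i) G) (BL ε z).1 (BL ε (va, va)).1 =
      tx z.1 i * fderiv ℝ G (BL ε z).1 (BL ε (va, va)).1 := by
    have h1 : HasFDerivAt (fun u : E5 => ((u.1.1.2 i : ℝ) : ℂ)) _ (BL ε z).1 :=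
      (Complex.ofRealCLM ∘L ContinuousLinearMap.proj (R := ℝ) (φ := fun _ => ℝ) i ∘L
        ContinuousLinearMap.snd ℝ ℝ R2 ∘L ContinuousLinearMap.fst ℝ P3 R2 ∘L
          ContinuousLinearMap.fst ℝ (P3 × R2) (ℝ × ℝ)).hasFDerivAt
    refine (congrArg (· (BL ε (va, va)).1)
      (h1.mul (hG.1.differentiable (by simp) _).hasFDerivAt).fderiv).trans ?_
    simp [BL_apply, pl]
  rw [fd_Ps hG hK, fd_Ps (dc_mu5 (by fun_prop) hG) hK, e1, e2, map_add, map_smul, map_smul]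
  simp only [Ps, ten, mu5, cx, BL_apply, mL_apply, pl_2, al_add, al_smul, al_va, al_ex,
    Complex.real_smul]
  push_cast
  ring

end legs

theorem rot_pr {g : P3 → ℝ} {R : ℝ → ℝ} (hg : Tst g) (hR : Tst R) (i : Fin 2) (z : V) :
    fderiv ℝ (pr g R) z (mL i z) = pr (xi i (da g)) R z + pr (di i g) (fun t => t * R t) z := by
  have e : pl (mL i z) = tx z i • ((1, 0) : P3) + be z • (0, e2 i) := by
    simp [mL_apply, pl]
  rw [fd_pr hg hR, e, map_add, map_smul, map_smul]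
  simp only [pr, xi, da, di, dx, mL_apply, pl_2, be_add, be_smul, be_va, be_ex, smul_eq_mul]
  push_cast
  ring

theorem tra_pr {g : P3 → ℝ} {R : ℝ → ℝ} (hg : Tst g) (hR : Tst R) (z : V) :
    fderiv ℝ (pr g R) z va = pr (da g) R z := by
  rw [fd_pr hg hR, Ap.pl_va, be_va, zero_mul, mul_zero, add_zero, pr, da]

variable {D : Type*} [NormedAddCommGroup D] [InnerProductSpace ℂ D] {c : Ctx D}

/-- **The Ward identity of the null rotations.** -/
theorem ward [Fact c.tp] (hc : GRP c) {G : E5 → ℂ} {K R : ℝ → ℝ} {g : P3 → ℝ} {ε : ℝ} (hG : Dc G) (hK : Tst K)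
    (hg : Tst g) (hR : Tst R) (h : ε ∈ Set.Ioc (0 : ℝ) 1) (i : Fin 2) :
    X c (Ps (mu5 (fun u => u.1.2 i - u.1.1.2 i) G) (deriv K) ε) (pr g R) =
      X c (Ps (mu5 (fun u => u.1.1.2 i) G) K ε) (pr (da g) R) -
      X c (Ps G K ε) (pr (xi i (da g)) R) - X c (Ps G K ε) (pr (di i g) fun t => t * R t) -
      ε * X c (Ps (fun u => fderiv ℝ G u (NL i u)) K ε) (pr g R) := by
  have d0 := Far.dc_pr hg hR
  have d1 := dc_Ps (dc_mu5 (φ := fun u => u.1.1.2 i) (by fun_prop) hG) hK h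
  have d2 := dc_Ps (Api4.dc_fderiv hG (smooth_NL i)) hK h
  have d3 := dc_Ps (dc_mu5 (φ := fun u => u.1.2 i - u.1.1.2 i) (by fun_prop) hG)
    (Ap.cs_deriv hK) h
  have a1 := X_rot hc (dc_Ps hG hK h) d0 i
  have a2 := X_tra (c := c) d1 d0 va
  simp only [rot_Ps hG hK h.1.ne', rot_pr hg hR] at a1
  simp only [tra_pr hg hR] at a2
  rw [X_add_l (Api4.dc_fderiv d1 contDiff_const) (Api4.dc_add (Api4.dc_const_mul _ d2) d3) d0,
    X_add_l (Api4.dc_const_mul _ d2) d3 d0, X_mul_l d2 d0,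
    X_add_r (dc_Ps hG hK h) (Far.dc_pr (tst_xi i (tst_da hg)) hR)
      (Far.dc_pr (tst_di i hg) (Ap.cs_mul_l contDiff_fun_id hR))] at a1
  linear_combination a1 - a2

end

end Vale.Agent.P352X.IXH
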